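import Vale.Agent.P058.NotSub

/-!
A four-point Ramsey set in the plane that is not subtransitive.
-/

namespace Vale.Agent.Results.P058.LRWDisproof

open Vale.Agent.P058

/-- There is a four-point planar set which is Ramsey but not subtransitive; in particular the
Leader–Russell–Walters conjecture is false. -/
theorem result : ∃ A : Finset (EuclideanSpace ℝ (Fin 2)),
    A.card = 4 ∧ IsRamsey A ∧ ¬ IsSubtransitive A := by
  classical
  refine ⟨Finset.univ.image kite, ?_, kite_ramsey, kite_not_subtransitive⟩
  rw [Finset.card_image_of_injective, Finset.card_univ, Fintype.card_fin]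
  intro i j hij
  have h : kD i j = 0 := by rw [← dist_kite, hij, dist_self]; norm_num
  have hp := kp_pos
  have hp' := kp_lt_one
  fin_cases i <;> fin_cases j <;>
    first
      | rfl
      | (exfalso
         norm_num [kD, kx, ky, kq_sq] at h
         done)
      | (exfalso
         norm_num [kD, kx, ky, kq_sq] at h
         nlinarith)

end Vale.Agent.Results.P058.LRWDisproof
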